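import Vale.Agent.P042.Main

/-! Large sets without differences in the values of an arbitrary integer polynomial. -/

namespace Vale.Agent.Results.P042.EveryPolynomialLogGain

open Filter Finset Polynomial

theorem result : ∀ h : ℤ[X], 2 ≤ h.natDegree → 0 < h.leadingCoeff →
    ∃ c : ℝ, 0 < c ∧ ∀ᶠ N : ℕ in atTop, ∃ A ⊆ Icc 1 N,
      (∀ a ∈ A, ∀ b ∈ A, ∀ n : ℕ, 1 ≤ n → (a : ℤ) - b = h.eval (n : ℤ) → a = b) ∧
        c * (N : ℝ) ^ (1 - 1 / (h.natDegree : ℝ)) * Real.log N ≤ A.card := fun _ hk hlc =>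
  Vale.Agent.P042.exists_avoiding hk hlc

end Vale.Agent.Results.P042.EveryPolynomialLogGain
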