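import Vale.Agent.P042.Power.Main

/-! A power gain over the greedy lower bound for sets avoiding squarefree polynomial differences. -/

namespace Vale.Agent.Results.P042.PowerGain

open Filter Finset Polynomial

theorem result : ∀ h : ℤ[X], 2 ≤ h.natDegree → 0 < h.leadingCoeff →
    Squarefree (h.map (Int.castRingHom ℚ)) →
    ∃ δ : ℝ, 0 < δ ∧ ∃ c : ℝ, 0 < c ∧ ∀ᶠ N : ℕ in atTop, ∃ A ⊆ Icc 1 N,
      (∀ a ∈ A, ∀ b ∈ A, ∀ n : ℕ, 1 ≤ n → (a : ℤ) - b = h.eval (n : ℤ) → a = b) ∧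
        c * (N : ℝ) ^ (1 - 1 / (h.natDegree : ℝ) + δ) ≤ A.card :=
  fun h hk hlc hsq => Vale.Agent.P042.Power.exists_power_gain h hk hlc hsq

end Vale.Agent.Results.P042.PowerGain
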